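import Vale.Agent.P237.Petty.Cor.Few.Main
import Vale.Agent.P237.Petty.Cor.Few.Orders19.Joined

/-!
# P237: the large regime in the orders from seventeen to twenty-four
-/

namespace Vale.Agent.P237.Petty.Cor.Few

open Set Vale.Agent.P100.Bernstein

theorem good19 : Good data19 where
  one := one19_0
  dom := ⟨_, dom19_0⟩
  pos := ⟨_, pos19_0⟩
  fast := ⟨_, fast19_0⟩
  slowCert := ⟨_, slowCert19_0⟩
  far := ⟨_, far19_0⟩
  corner := ⟨_, corner19_0⟩
  room := ⟨_, room19_0⟩
  mean := ⟨_, mean19_0⟩
  lo7 := by norm_num [data19]
  nu M hM := by
    simp only [data19, Nat.cast_ofNat] at hM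
    simp only [Data.nuC, data19, val]
    push_cast
    linarith [hM.1]
  shadow M hM := by
    simp only [data19, Nat.cast_ofNat] at hM
    simp only [Data.shadowC, Data.nuC, data19, val]
    push_cast
    linarith [hM.1]
  w0 := by norm_num [data19, val]
  v0 := by norm_num [data19, val]
  lv := by
    have e : Real.log 4 = 2 * Real.log 2 := by
      rw [show (4 : ℝ) = 2 ^ 2 by norm_num, Real.log_pow]
      norm_num
    have h := Real.log_two_gt_d9
    norm_num [data19, val] at h e ⊢
    linarith
  lam := by norm_num [data19, val]
  ellPos := by norm_num [data19, val]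

/-- The large regime above logarithm one in the orders from seventeen to twenty-four. -/
theorem pointwiseR_orders19 {p : ℕ} (hp : 17 ≤ p) (hp' : p ≤ 24) : PointwiseR p 1 := by
  have h := pointwiseR_of_good good19 (p := p) (by simp only [data19]; omega)
    (by simp only [data19]; omega)
  simpa [data19, val] using h

end Vale.Agent.P237.Petty.Cor.Few
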