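import Vale.Agent.P237.Petty.Cor.Few.Main
import Vale.Agent.P237.Petty.Cor.Few.Orders8.Joined

/-!
# P237: the large regime in the orders from six to eleven
-/

namespace Vale.Agent.P237.Petty.Cor.Few

open Set Vale.Agent.P100.Bernstein

theorem good8 : Good data8 where
  one := one8_0
  dom := ⟨_, dom8_0⟩
  pos := ⟨_, pos8_0⟩
  fast := ⟨_, fast8_0⟩
  slowCert := ⟨_, slowCert8_0⟩
  far := ⟨_, far8_0⟩
  corner := ⟨_, corner8_0⟩
  room := ⟨_, room8_0⟩
  mean := ⟨_, mean8_0⟩
  lo7 := by norm_num [data8]
  nu M hM := by
    simp only [data8, Nat.cast_ofNat] at hM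
    simp only [Data.nuC, data8, val]
    push_cast
    linarith [hM.1]
  shadow M hM := by
    simp only [data8, Nat.cast_ofNat] at hM
    simp only [Data.shadowC, Data.nuC, data8, val]
    push_cast
    linarith [hM.1]
  w0 := by norm_num [data8, val]
  v0 := by norm_num [data8, val]
  lv := by
    have e : Real.log 4 = 2 * Real.log 2 := by
      rw [show (4 : ℝ) = 2 ^ 2 by norm_num, Real.log_pow]
      norm_num
    have h := Real.log_two_gt_d9
    norm_num [data8, val] at h e ⊢
    linarith
  lam := by norm_num [data8, val]
  ellPos := by norm_num [data8, val]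

/-- The large regime above logarithm five halves in the orders from six to eleven. -/
theorem pointwiseR_orders8 {p : ℕ} (hp : 6 ≤ p) (hp' : p ≤ 11) : PointwiseR p (5 / 2) := by
  have h := pointwiseR_of_good good8 (p := p) (by simp only [data8]; omega)
    (by simp only [data8]; omega)
  simpa [data8, val] using h

end Vale.Agent.P237.Petty.Cor.Few
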