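import Vale.Agent.P237.Petty.Cor.Few.Orders6
import Vale.Agent.P237.Petty.Cor.Few.Orders8
import Vale.Agent.P237.Petty.Cor.Few.Orders14
import Vale.Agent.P237.Petty.Cor.Few.Orders19
import Vale.Agent.P237.Petty.Cor.Low.Main

/-!
# P237: the large regime in every order from four on
-/

namespace Vale.Agent.P237.Petty.Cor

/-- The threshold of the large regime. -/
noncomputable def largeFrom (p : ℕ) : ℝ :=
  if p ≤ 5 then 5 else if p ≤ 11 then 5 / 2 else if p ≤ 16 then 3 / 2 else 1

/-- The large regime above `largeFrom p`, in every order from four on. -/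
theorem pointwiseR_from_four {p : ℕ} (hp : 4 ≤ p) : PointwiseR p (largeFrom p) := by
  unfold largeFrom
  split_ifs with h1 h2 h3
  · exact Few.pointwiseR_orders6 hp h1
  · exact Few.pointwiseR_orders8 (by omega) h2
  · exact Few.pointwiseR_orders14 (by omega) h3
  · rcases le_total 25 p with h | h
    · exact Low.pointwiseR_one h
    · rcases h.eq_or_lt with rfl | h'
      · exact Low.pointwiseR_one le_rfl
      · exact Few.pointwiseR_orders19 (by omega) (by omega)

end Vale.Agent.P237.Petty.Cor
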