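import Vale.Agent.P100.Bernstein.Cert
import Mathlib.Tactic.IntervalCases

/-!
# P237: the signs of all packed coefficients by one bitwise operation

The lemmas on the mask are those of the grid engine; here the mask has a closed form, so that the
kernel tests a leaf of a certificate with a constant number of operations on integers.
-/

namespace Vale.Agent.P237.Petty.Cor.Few

open Vale.Agent.P100.Bernstein

/-- The top bits of `N` digits of `k + 1` bits. -/
def maskN (k : ℕ) : ℕ → ℕ
  | 0 => 0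
  | N + 1 => 2 ^ k + 2 ^ (k + 1) * maskN k N

theorem maskN_add (k a : ℕ) : ∀ b,
    maskN k (a + b) = maskN k a + 2 ^ ((k + 1) * a) * maskN k b := by
  induction a with
  | zero => intro b; simp [maskN]
  | succ a ih =>
    intro b
    rw [show a + 1 + b = (a + b) + 1 by omega, maskN, maskN, ih b, mul_add, mul_add,
      mul_one, pow_add]
    ring

theorem maskN_lt (k : ℕ) : ∀ N, maskN k N < 2 ^ ((k + 1) * N)
  | 0 => by simp [maskN]
  | N + 1 => by
    have h := maskN_lt k N
    have h1 : 2 ^ k < 2 ^ (k + 1) := Nat.pow_lt_pow_right (by norm_num) (by omega)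
    calc maskN k (N + 1) = 2 ^ k + 2 ^ (k + 1) * maskN k N := rfl
      _ < 2 ^ (k + 1) + 2 ^ (k + 1) * maskN k N := Nat.add_lt_add_right h1 _
      _ = 2 ^ (k + 1) * (maskN k N + 1) := by ring
      _ ≤ 2 ^ (k + 1) * 2 ^ ((k + 1) * N) := Nat.mul_le_mul_left _ h
      _ = 2 ^ ((k + 1) * (N + 1)) := by rw [← pow_add]; ring_nf

theorem le_maskN (k N : ℕ) : 2 ^ ((k + 1) * N + k) ≤ maskN k (N + 1) := by
  rw [maskN_add k N 1, pow_add]
  simp [maskN]

/-- Without the top bit a block is below half its range. -/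
theorem block_lt {k N w : ℕ} (hw : w < 2 ^ ((k + 1) * (N + 1)))
    (h : w &&& maskN k (N + 1) = 0) : w < 2 ^ ((k + 1) * N + k) := by
  by_contra hc
  have hc' := Nat.not_lt.1 hc
  have e : (k + 1) * (N + 1) = (k + 1) * N + k + 1 := by ring
  rw [e, pow_succ] at hw
  have hm := maskN_lt k (N + 1)
  rw [e, pow_succ] at hm
  have hpos : 0 < 2 ^ ((k + 1) * N + k) := Nat.two_pow_pos _
  have a1 : w / 2 ^ ((k + 1) * N + k) = 1 :=
    Nat.div_eq_of_lt_le (by omega) (by omega)
  have a2 : maskN k (N + 1) / 2 ^ ((k + 1) * N + k) = 1 :=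
    Nat.div_eq_of_lt_le (by have := le_maskN k N; omega) (by omega)
  have h2 : (w &&& maskN k (N + 1)) / 2 ^ ((k + 1) * N + k) = 1 := by
    rw [Nat.and_div_two_pow, a1, a2]
    rfl
  rw [h, Nat.zero_div] at h2
  omega

/-- The first block and the rest of a value without top bits. -/
theorem block_split {k A B v : ℕ} (h : v &&& maskN k (A + B) = 0) :
    v % 2 ^ ((k + 1) * A) &&& maskN k A = 0 ∧ v / 2 ^ ((k + 1) * A) &&& maskN k B = 0 := by
  have hA := maskN_lt k A
  rw [maskN_add] at h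
  constructor
  · have h1 := Nat.and_mod_two_pow (a := v) (b := maskN k A + 2 ^ ((k + 1) * A) * maskN k B)
      (n := (k + 1) * A)
    rw [h, Nat.zero_mod, Nat.add_mul_mod_self_left, Nat.mod_eq_of_lt hA] at h1
    exact h1.symm
  · have h1 := Nat.and_div_two_pow (a := v) (b := maskN k A + 2 ^ ((k + 1) * A) * maskN k B)
      (n := (k + 1) * A)
    rw [h, Nat.zero_div, Nat.add_mul_div_left _ _ (Nat.two_pow_pos _), Nat.div_eq_of_lt hA,
      zero_add] at h1
    exact h1.symm

theorem digits_of_mask (f : ℤ → Bool) (k A : ℕ)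
    (hf : ∀ w : ℕ, w < 2 ^ ((k + 1) * (A + 1)) → w &&& maskN k (A + 1) = 0 → f w = true) :
    ∀ (j v : ℕ), v < 2 ^ ((k + 1) * ((j + 1) * (A + 1))) →
      v &&& maskN k ((j + 1) * (A + 1)) = 0 →
        digits f (2 ^ ((k + 1) * (A + 1))) j (v : ℤ) = true
  | 0, v, hv, h => by
    rw [digits]
    exact hf v (by simpa using hv) (by simpa using h)
  | j + 1, v, hv, h => by
    rw [show (j + 1 + 1) * (A + 1) = (A + 1) + (j + 1) * (A + 1) by ring] at h hv
    obtain ⟨h1, h2⟩ := block_split h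
    set Y := 2 ^ ((k + 1) * (A + 1)) with hY
    have hYp : 0 < Y := Nat.two_pow_pos _
    have hlt : v % Y < 2 ^ ((k + 1) * A + k) := block_lt (Nat.mod_lt _ hYp) h1
    have hY2 : Y = 2 * 2 ^ ((k + 1) * A + k) := by
      rw [hY, show (k + 1) * (A + 1) = (k + 1) * A + k + 1 by ring, pow_succ]
      ring
    have hb : (v : ℤ).bmod Y = ((v % Y : ℕ) : ℤ) := by
      have h3 : ((v % Y : ℕ) : ℤ) = (v : ℤ) % (Y : ℤ) := by push_cast; rfl
      rw [Int.bmod_def, if_pos, h3]
      rw [← h3]
      omega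
    have hd : ((v : ℤ) - ((v % Y : ℕ) : ℤ)) / (Y : ℤ) = ((v / Y : ℕ) : ℤ) := by
      have h4 := Nat.div_add_mod v Y
      have h5 : (v : ℤ) - ((v % Y : ℕ) : ℤ) = (Y : ℤ) * ((v / Y : ℕ) : ℤ) := by
        rw [eq_comm, ← sub_eq_zero]
        have : ((Y * (v / Y) + v % Y : ℕ) : ℤ) = (v : ℤ) := by rw [h4]
        push_cast at this ⊢
        linarith
      rw [h5, Int.mul_ediv_cancel_left _ (by exact_mod_cast hYp.ne')]
    rw [digits, hb, hd, Bool.and_eq_true]
    refine ⟨hf _ (Nat.mod_lt _ hYp) h1, digits_of_mask f k A hf j (v / Y) ?_ h2⟩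
    rw [Nat.div_lt_iff_lt_mul hYp, hY, ← pow_add]
    refine hv.trans_le (Nat.pow_le_pow_right (by norm_num) (le_of_eq ?_))
    ring

theorem size_pos : ∀ D : Deg, 0 < size D
  | [] => Nat.one_pos
  | d :: D => Nat.mul_pos d.succ_pos (size_pos D)

theorem signs_of_mask (k : ℕ) : ∀ (D : Deg) (v : ℕ), v < 2 ^ ((k + 1) * size D) →
    v &&& maskN k (size D) = 0 → signs false (k + 1) D (v : ℤ) = true
  | [], v, _, _ => by simp [signs]
  | d :: D, v, hv, h => by
    obtain ⟨A, hA⟩ : ∃ A, size D = A + 1 := ⟨size D - 1, by have := size_pos D; omega⟩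
    rw [signs, hA, show ((2 : ℕ) ^ (k + 1)) ^ (A + 1) = 2 ^ ((k + 1) * (A + 1)) by rw [← pow_mul]]
    rw [size, hA] at h hv
    have hD := signs_of_mask k D
    rw [hA] at hD
    exact digits_of_mask _ k A hD d v hv h

/-- The mask, in closed form. -/
def topBits (k N : ℕ) : ℕ := (2 ^ ((k + 1) * N) - 1) / (2 ^ (k + 1) - 1) * 2 ^ k

theorem topBits_eq (k N : ℕ) : topBits k N = maskN k N := by
  have hd : 0 < 2 ^ (k + 1) - 1 := by
    have : 2 ≤ 2 ^ (k + 1) := Nat.le_self_pow (by omega) 2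
    omega
  have key : ∀ N, ∃ G, 2 ^ ((k + 1) * N) - 1 = G * (2 ^ (k + 1) - 1) ∧ G * 2 ^ k = maskN k N := by
    intro N
    induction N with
    | zero => exact ⟨0, by simp, by simp [maskN]⟩
    | succ N ih =>
      obtain ⟨G, h1, h2⟩ := ih
      refine ⟨1 + 2 ^ (k + 1) * G, ?_, ?_⟩
      · have h3 : 1 ≤ 2 ^ ((k + 1) * N) := Nat.one_le_two_pow
        have h4 : 1 ≤ 2 ^ (k + 1) := Nat.one_le_two_pow
        rw [show (k + 1) * (N + 1) = (k + 1) + (k + 1) * N by ring, pow_add]
        zify [h3, h4, Nat.one_le_iff_ne_zero.2 (Nat.mul_pos h4 h3).ne'] at h1 ⊢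
        linear_combination (2 : ℤ) ^ (k + 1) * h1
      · rw [maskN, ← h2]
        ring
  obtain ⟨G, h1, h2⟩ := key N
  rw [topBits, h1, Nat.mul_div_cancel _ hd, h2]

/-- The test on one box. -/
def quickBox (e : Expr) (B : List Iv) (K : ℕ) (X : List ℕ) (D : Deg) : Bool :=
  okBox B && decide (2 * (e.pack B X).bound < 2 ^ K) &&
    decide (padD B.length (e.pack B X).deg = D) && decide (weights K D = X) && decide (0 < K) &&
    decide (0 ≤ (e.pack B X).val) && decide ((e.pack B X).val.natAbs < 2 ^ (K * size D)) &&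
    (Nat.land (e.pack B X).val.natAbs (topBits (K - 1) (size D)) == 0)

theorem checkBox_of_quickBox {e : Expr} {B : List Iv} {K : ℕ} {X : List ℕ} {D : Deg}
    (h : quickBox e B K X D = true) : checkBox false e B K X = true := by
  simp only [quickBox, Bool.and_eq_true, decide_eq_true_eq, beq_iff_eq] at h
  obtain ⟨⟨⟨⟨⟨⟨⟨ho, hb⟩, hD⟩, hX⟩, hK⟩, hv⟩, hlt⟩, hm⟩ := h
  obtain ⟨k, rfl⟩ : ∃ k, K = k + 1 := ⟨K - 1, by omega⟩
  rw [Nat.add_sub_cancel, topBits_eq] at hm
  have hs := signs_of_mask k D (e.pack B X).val.natAbs hlt hm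
  rw [Int.natAbs_of_nonneg hv] at hs
  simp only [checkBox, Bool.and_eq_true, decide_eq_true_eq, hD, ho, hb, hX, hs, and_self]

/-- The test on the leaves of a tree of bisections. -/
def quickTree (e : Expr) : List Iv → Tree → Bool
  | B, .leaf => quickBox e B (radix e B) (points e B) (padD B.length (e.pack B []).deg)
  | B, .split i l r => quickTree e (halves i B).1 l && quickTree e (halves i B).2 r

/-- The complete test. -/
def quickCert (e : Expr) (B : List Iv) (T : Tree) : Bool := e.ok B.length && quickTree e B T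

theorem checkTree_of_quickTree (e : Expr) : ∀ (T : Tree) (B : List Iv),
    quickTree e B T = true → checkTree false e B T = true
  | .leaf, B, h => checkBox_of_quickBox h
  | .split i l r, B, h => by
    simp only [quickTree, checkTree, Bool.and_eq_true] at h ⊢
    exact ⟨checkTree_of_quickTree e l _ h.1, checkTree_of_quickTree e r _ h.2⟩

/-- The quick test gives the certificate. -/
theorem certify_of_quick {e : Expr} {B : List Iv} {T : Tree} (h : quickCert e B T = true) :
    certify false e B T = true := by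
  simp only [quickCert, certify, Bool.and_eq_true] at h ⊢
  exact ⟨h.1, checkTree_of_quickTree e T B h.2⟩

end Vale.Agent.P237.Petty.Cor.Few
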