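import Vale.Agent.P237.Petty.Cor.Few.Field
import Vale.Agent.P237.Petty.Cor.Low.Scalar

/-!
# P237: the integrand from the certificates of a record

With `v ^ 2` the reciprocal of the speed, the rational bound of `log v` makes the integrand a
rational function, nonnegative by the certificates up to the end of the circle and by the
inequality of the means there; beyond the largest speed treated directly it is concave.
-/

namespace Vale.Agent.P237.Petty.Cor.Few

open Set Vale.Agent.P100.Bernstein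
open Low (slow slow_concave)

/-- The certificates of a record and the signs of its constants. -/
structure Good (d : Data) : Prop where
  one : certify false d.eP d.box .leaf = true
  dom : ∃ T, certify false d.eDom d.box T = true
  pos : ∃ T, certify false d.eQ d.box T = true
  fast : ∃ T, certify false d.eOne d.boxFast T = true
  slowCert : ∃ T, certify false d.eOne d.boxSlow T = true
  far : ∃ T, certify false d.eOne d.boxFar T = true
  corner : ∃ T, certify false d.eCorner d.boxCorner T = true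
  room : ∃ T, certify false d.eEnd d.box T = true
  mean : ∃ T, certify false d.eMean d.boxM T = true
  lo7 : 7 ≤ d.lo
  nu : ∀ M ∈ Icc (d.lo : ℝ) d.hi, 0 < d.nuC M
  shadow : ∀ M ∈ Icc (d.lo : ℝ) d.hi, 0 < d.shadowC M
  w0 : 0 < val d.w0
  v0 : 2 ≤ val d.v0 ^ 2 ∧ 0 < val d.v0 ∧ 0 < d.v0.2
  lv : val d.lv ≤ Real.log (val d.v0 ^ 2)
  lam : 0 ≤ val d.lam
  ellPos : 0 < val d.ell

variable {d : Data} {M w t v : ℝ}

theorem iv_mem {lo hi : ℤ} {den : ℕ} {x : ℝ} (hden : 0 < den) (h0 : (lo : ℝ) / den ≤ x)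
    (h1 : x ≤ (hi : ℝ) / den) : (lo : ℝ) ≤ den * x ∧ (den : ℝ) * x ≤ hi := by
  have hd : (0 : ℝ) < den := by exact_mod_cast hden
  rw [div_le_iff₀ hd] at h0
  rw [le_div_iff₀ hd] at h1
  exact ⟨by linarith, by linarith⟩

/-- A point of `(v, t, M, w)` in a box. -/
theorem inBox_of {lo hi wl wh vl vh : ℤ} {wd vd : ℕ} (hM : M ∈ Icc (lo : ℝ) hi)
    (hwd : 0 < wd) (hvd : 0 < vd) (hw : w ∈ Icc ((wl : ℝ) / wd) (wh / wd))
    (ht : t ∈ Icc (0 : ℝ) 1) (hv : v ∈ Icc ((vl : ℝ) / vd) (vh / vd)) :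
    InBox [⟨vl, vh, vd⟩, ⟨0, 1, 1⟩, ⟨lo, hi, 1⟩, ⟨wl, wh, wd⟩] [v, t, M, w] ∧
      InBox [⟨0, 0, 1⟩, ⟨0, 1, 1⟩, ⟨lo, hi, 1⟩, ⟨wl, wh, wd⟩] [0, t, M, w] := by
  obtain ⟨a, b⟩ := iv_mem hwd hw.1 hw.2
  obtain ⟨a', b'⟩ := iv_mem hvd hv.1 hv.2
  simp [InBox, hM.1, hM.2, ht.1, ht.2, a, b, a', b']

/-- The rational bound of the logarithm gives the bound at a reciprocal speed. -/
theorem slow_of_poly {P A Q X : ℝ} (hA : 0 ≤ A) (hv : 0 < v)
    (h : 0 ≤ P * (1 - v ^ 2) * (4 + 2 * v) + 2 * A * v * (v - 1) * (1 + 5 * v) -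
      Q * v ^ 2 * (v ^ 2 - 1) * (4 + 2 * v) + X * v ^ 2 * (4 + 2 * v)) :
    -X ≤ slow P A Q (v ^ 2) := by
  have hl := mul_le_mul_of_nonneg_left (pade_le_log hv) (show 0 ≤ 2 * A by linarith)
  have hlog : Real.log (v ^ 2) = 2 * Real.log v := by
    rw [Real.log_pow]
    norm_num
  have e : (P * (1 - v ^ 2) * (4 + 2 * v) + 2 * A * v * (v - 1) * (1 + 5 * v) -
      Q * v ^ 2 * (v ^ 2 - 1) * (4 + 2 * v) + X * v ^ 2 * (4 + 2 * v)) / (v ^ 2 * (4 + 2 * v)) =
      P * (1 / v ^ 2 - 1) + 2 * A * ((v - 1) * (1 + 5 * v) / (v * (4 + 2 * v))) -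
        Q * (v ^ 2 - 1) + X := by
    field_simp
  have h' := div_nonneg h (show 0 ≤ v ^ 2 * (4 + 2 * v) by positivity)
  rw [e] at h'
  simp only [slow, hlog]
  linarith

/-- Near the end of the circle the inequality of the means suffices at large speeds. -/
theorem corner_poly {P A Q X : ℝ} (hP : 0 ≤ P) (hA : 0 < A) (hQ : 0 ≤ Q)
    (hX : 7 / 4 * A ^ 2 ≤ 16 * P * X) (hv : 0 < v) (hv1 : v ≤ 1 / 16) :
    0 ≤ P * (1 - v ^ 2) * (4 + 2 * v) + 2 * A * v * (v - 1) * (1 + 5 * v) -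
      Q * v ^ 2 * (v ^ 2 - 1) * (4 + 2 * v) + X * v ^ 2 * (4 + 2 * v) := by
  have hPX : 0 < P * X := by nlinarith [pow_pos hA 2]
  have hX0 : 0 < X := pos_of_mul_pos_right hPX hP
  have hsq : 0 ≤ 4 * P - 21 / 8 * A * v + 4 * X * v ^ 2 := by
    refine nonneg_of_mul_nonneg_right (a := 16 * X) ?_ (by linarith)
    nlinarith [sq_nonneg (8 * X * v - 21 / 8 * A)]
  have h1 := mul_nonneg (show 0 ≤ 1 - v by linarith) hsq
  have h2 := mul_le_mul_of_nonneg_left (show 1 + 5 * v ≤ 21 / 16 by linarith)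
    (show 0 ≤ 2 * A * v * (1 - v) from mul_nonneg (by positivity) (by linarith))
  have h3 : 0 ≤ (1 - v) * P * (6 * v + 2 * v ^ 2) :=
    mul_nonneg (mul_nonneg (by linarith) hP) (by positivity)
  have h4 : 0 ≤ Q * v ^ 2 * ((1 - v ^ 2) * (4 + 2 * v)) :=
    mul_nonneg (by positivity) (mul_nonneg (by nlinarith) (by linarith))
  have h5 : 0 ≤ X * v ^ 2 * (6 * v) := by positivity
  linarith

/-- Beyond the largest speed treated directly the end of the room suffices. -/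
theorem slow_ge {P A Q X K q x : ℝ} (hP : P ≤ A) (hA : 0 ≤ A) (hK : 2 ≤ K) (hq : K ≤ q)
    (hqx : q ≤ K * x) (hK0 : -X ≤ slow P A Q K) (hend : 1 ≤ x → -X ≤ slow P A Q (K * x)) :
    -X ≤ slow P A Q q := by
  have hKx : K ≤ K * x := hq.trans hqx
  have hx : 1 ≤ x := le_of_mul_le_mul_left (show K * 1 ≤ K * x by linarith) (by linarith)
  refine le_trans (le_min hK0 (hend hx)) ((slow_concave (Q := Q) hP hA).ge_on_segment
    (show (2 : ℝ) ≤ K from hK) (show (2 : ℝ) ≤ K * x from hK.trans hKx) ?_)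
  rw [segment_eq_Icc hKx]
  exact ⟨hq, hqx⟩

variable {T N C P Q A X : ℝ}

/-- The cleared inequality at a reciprocal speed. -/
theorem clear_one (hT : 0 < T) (hN : 0 < N) (hC : 0 < C)
    (h : 0 ≤ N ^ 2 * C ^ 3 * (T * P * C * (1 - v ^ 2) * (4 + 2 * v) +
      2 * (T * C * A) * v * (v - 1) * (1 + 5 * v) -
      T * Q * C * v ^ 2 * (v ^ 2 - 1) * (4 + 2 * v)) +
      T * N ^ 2 * C ^ 4 * X * v ^ 2 * (4 + 2 * v)) :
    0 ≤ P * (1 - v ^ 2) * (4 + 2 * v) + 2 * A * v * (v - 1) * (1 + 5 * v) -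
      Q * v ^ 2 * (v ^ 2 - 1) * (4 + 2 * v) + X * v ^ 2 * (4 + 2 * v) := by
  refine nonneg_of_mul_nonneg_right (a := T * N ^ 2 * C ^ 4) ?_ (by positivity)
  linarith

/-- The cleared inequality at the end of the room. -/
theorem clear_end {K L l x e u : ℝ} (hT : 0 < T) (hN : 0 < N) (hC : 0 < C) (hA : 0 ≤ A)
    (hl : 0 ≤ l) (hK : 0 < K) (hL : L ≤ Real.log K) (hx : 1 ≤ x) (hd : 0 < e) (hu : u = x * e)
    (h : 0 ≤ (N ^ 2 * C ^ 3 * (T * P * C * (e - K * u) * (4 * e + 2 * u) * e +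
        K * (T * C * A) * (L * u * (4 * e + 2 * u) + (u - e) * (e + 5 * u)) * e -
        K * (T * Q) * C * (K * u - e) * u * (4 * e + 2 * u)) +
      K * (T * N ^ 2 * C ^ 4 * X) * u * (4 * e + 2 * u) * e) * (e + 4 * u) ^ 2 -
      l * t ^ 2 * (N ^ 2 * C ^ 3 * (T * C * A) * e ^ 4 * (u - e))) :
    -X ≤ slow P A Q (K * x) := by
  subst hu
  have hx0 : 0 < x := by linarith
  have hpen : 0 ≤ l * t ^ 2 * (N ^ 2 * C ^ 3 * (T * C * A) * e ^ 4 * (x * e - e)) := by
    have : 0 ≤ x * e - e := by nlinarith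
    positivity
  have h0 : 0 ≤ T * N ^ 2 * C ^ 4 * e ^ 3 * (e + 4 * (x * e)) ^ 2 *
      (P * (1 - K * x) * (4 + 2 * x) + K * A * (L * (x * (4 + 2 * x)) + (x - 1) * (1 + 5 * x)) -
        K * Q * (K * x - 1) * (x * (4 + 2 * x)) + K * X * (x * (4 + 2 * x))) := by
    linear_combination h + hpen
  have h1 := div_nonneg (nonneg_of_mul_nonneg_right h0 (by positivity))
    (show 0 ≤ K * (x * (4 + 2 * x)) by positivity)
  have e1 : (P * (1 - K * x) * (4 + 2 * x) +
        K * A * (L * (x * (4 + 2 * x)) + (x - 1) * (1 + 5 * x)) -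
        K * Q * (K * x - 1) * (x * (4 + 2 * x)) + K * X * (x * (4 + 2 * x))) /
        (K * (x * (4 + 2 * x))) =
      P * (1 / (K * x) - 1) + A * (L + (x - 1) * (1 + 5 * x) / (x * (4 + 2 * x))) -
        Q * (K * x - 1) + X := by
    field_simp
  rw [e1] at h1
  have h2 := mul_le_mul_of_nonneg_left (add_le_add hL (pade_le_log hx0)) hA
  rw [← Real.log_mul hK.ne' hx0.ne'] at h2
  simp only [slow]
  linarith

/-- The gauge of the speed with the terms in the displacement. -/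
theorem core_ge (g : Good d) {s c r : ℝ} (hM : M ∈ Icc (d.lo : ℝ) d.hi) (hs : s ∈ Ioo (0 : ℝ) 1)
    (ht : t ∈ Ioo (0 : ℝ) 1) (hc : 0 < c) (hc2 : c ^ 2 = 1 - s ^ 2) (hr : 0 < r)
    (hroom : c ^ 2 ≤ r * ((1 - t) * (M * s + √M))) :
    -d.lossR M s c ≤ d.pC M s t * (r - 1) + d.aC M c * -Real.log r -
      d.qC M s c t * (1 / r - 1) + d.baseC M s t := by
  have hM0 : (0 : ℝ) < M := by
    have : (7 : ℝ) ≤ d.lo := by exact_mod_cast g.lo7
    linarith [hM.1]
  set w := s / (1 + c) with hwd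
  have hw : w ∈ Ioo (0 : ℝ) 1 := by
    refine ⟨div_pos hs.1 (by linarith), (div_lt_one (by linarith)).2 (by linarith [hs.2])⟩
  have hN : 1 + w ^ 2 = 2 / (1 + c) := by
    rw [hwd, div_pow, show s ^ 2 = 1 - c ^ 2 by linarith]
    field_simp
    ring
  have es : 2 * w / (1 + w ^ 2) = s := by
    rw [hN, hwd]
    field_simp
  have ec : (1 - w ^ 2) / (1 + w ^ 2) = c := by
    rw [hN, show 1 - w ^ 2 = 2 - (1 + w ^ 2) by ring, hN]
    field_simp
    ring
  have hC : 0 < 1 - w ^ 2 := by nlinarith [hw.1, hw.2]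
  have hT : 0 < M ^ 2 * (1 + w ^ 2) ^ 4 := by positivity
  have hN0 : (0 : ℝ) < 1 + w ^ 2 := by positivity
  have hA : 0 < d.aC M c := div_pos (g.shadow M hM) hc
  have ev : ∀ v : ℝ, d.eP.eval [v, t, M, w] = M ^ 2 * (1 + w ^ 2) ^ 4 * d.pC M s t ∧
      d.eQ.eval [v, t, M, w] = M ^ 2 * (1 + w ^ 2) ^ 4 * d.qC M s c t ∧
      d.eA.eval [v, t, M, w] = M ^ 2 * (1 + w ^ 2) ^ 4 * (1 - w ^ 2) * d.aC M c ∧
      d.eW.eval [v, t, M, w] = M ^ 2 * (1 + w ^ 2) ^ 4 * (1 + w ^ 2) ^ 2 * (1 - w ^ 2) ^ 4 *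
        d.roomC M s c t := fun v => by
    obtain ⟨a1, a2, a3⟩ := eval_terms (d := d) (t := t) v hM0.ne' hC.ne'
    have a4 := eval_W (d := d) (t := t) v hM0.ne' hC.ne'
    rw [es] at a1
    rw [es, ec] at a2 a4
    rw [ec] at a3
    exact ⟨a1, a2, a3, a4⟩
  have eC' : ∀ v : ℝ, eC.eval [v, t, M, w] = 1 - w ^ 2 := fun v => by simp [eC, Expr.eval]
  have eN' : ∀ v : ℝ, eN.eval [v, t, M, w] = 1 + w ^ 2 := fun v => by simp [eN, Expr.eval]
  have eV' : ∀ v : ℝ, eV.eval [v, t, M, w] = v := fun v => by simp [eV]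
  have eH' : ∀ v : ℝ, eH.eval [v, t, M, w] = t := fun v => by simp [eH]
  have hM' : M ∈ Icc ((d.lo : ℤ) : ℝ) (d.hi : ℤ) := by exact_mod_cast hM
  have ht' := Ioo_subset_Icc_self ht
  have hw01 : w ∈ Icc (((0 : ℤ) : ℝ) / (1 : ℕ)) ((1 : ℤ) / (1 : ℕ)) := by
    simp only [Int.cast_zero, Int.cast_one, Nat.cast_one, div_one]
    exact Ioo_subset_Icc_self hw
  have bT := (inBox_of (vl := 0) (vh := 1) (vd := 1) (v := 0) hM' one_pos one_pos hw01 ht'
    (by simp)).2
  have hP : 0 ≤ d.pC M s t := by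
    have := nonneg_of_certify g.one bT
    rw [(ev 0).1] at this
    exact nonneg_of_mul_nonneg_right this hT
  have hQ : 0 ≤ d.qC M s c t := by
    obtain ⟨_, h⟩ := g.pos
    have := nonneg_of_certify h bT
    rw [(ev 0).2.1] at this
    exact nonneg_of_mul_nonneg_right this hT
  have hPA : d.pC M s t ≤ d.aC M c := by
    obtain ⟨_, h⟩ := g.dom
    have h' := nonneg_of_certify h bT
    simp [Data.eDom, Expr.eval, ev, eC'] at h'
    refine le_of_mul_le_mul_left (a := M ^ 2 * (1 + w ^ 2) ^ 4 * (1 - w ^ 2)) ?_ (mul_pos hT hC)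
    linarith
  have hK := g.v0
  have hone : ∀ v : ℝ, 0 < v → v ≤ val d.v0 → -d.roomC M s c t ≤
      slow (d.pC M s t) (d.aC M c) (d.qC M s c t) (v ^ 2) := by
    intro v hv hv0
    refine slow_of_poly hA.le hv ?_
    have hcl : ∀ {B : List Iv}, (∃ T, certify false d.eOne B T = true) → InBox B [v, t, M, w] →
        0 ≤ d.pC M s t * (1 - v ^ 2) * (4 + 2 * v) + 2 * d.aC M c * v * (v - 1) * (1 + 5 * v) -
          d.qC M s c t * v ^ 2 * (v ^ 2 - 1) * (4 + 2 * v) +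
          d.roomC M s c t * v ^ 2 * (4 + 2 * v) := by
      rintro B ⟨T, h⟩ hb
      have h' := nonneg_of_certify h hb
      simp [Data.eOne, Expr.eval, ev, eC', eN', eV'] at h'
      exact clear_one hT hN0 hC (by linarith)
    have hv0' : val d.v0 = ((d.v0.1 : ℤ) : ℝ) / (d.v0.2 : ℕ) := rfl
    have hd : ((d.v0.2 : ℤ) : ℝ) / (d.v0.2 : ℕ) = 1 := by
      have : (0 : ℝ) < d.v0.2 := by exact_mod_cast hK.2.2
      push_cast
      field_simp
    rcases le_total w (7 / 8) with h | h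
    · have hw' : w ∈ Icc (((0 : ℤ) : ℝ) / (8 : ℕ)) ((7 : ℤ) / (8 : ℕ)) := by
        push_cast
        exact ⟨by linarith [hw.1], h⟩
      rcases le_total v 1 with h1 | h1
      · exact hcl g.fast (inBox_of hM' (by norm_num) one_pos hw' ht'
          (by push_cast; simp [hv.le, h1])).1
      · exact hcl g.slowCert (inBox_of hM' (by norm_num) hK.2.2 hw' ht'
          ⟨hd.le.trans h1, hv0' ▸ hv0⟩).1
    · have hw' : w ∈ Icc (((7 : ℤ) : ℝ) / (8 : ℕ)) ((8 : ℤ) / (8 : ℕ)) := by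
        push_cast
        exact ⟨h, by linarith [hw.2]⟩
      rcases le_total v (1 / 16) with h1 | h1
      · refine corner_poly hP hA hQ ?_ hv h1
        obtain ⟨_, h'⟩ := g.corner
        have h2 := nonneg_of_certify h' (inBox_of (vl := 0) (vh := 1) (vd := 1) (v := 0) hM'
          (by norm_num) one_pos hw' ht' (by simp)).2
        simp [Data.eCorner, Expr.eval, ev, eC', eN', eval_q, val] at h2
        refine le_of_mul_le_mul_left (a := (M ^ 2 * (1 + w ^ 2) ^ 4) ^ 2 * (1 + w ^ 2) ^ 2 *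
          (1 - w ^ 2) ^ 4) ?_ (by positivity)
        linarith
      · refine hcl g.far (inBox_of hM' (by norm_num) (Nat.mul_pos (by norm_num) hK.2.2) hw' ht'
          ⟨?_, ?_⟩).1
        · refine le_trans (le_of_eq ?_) h1
          push_cast
          have : (0 : ℝ) < d.v0.2 := by exact_mod_cast hK.2.2
          field_simp
        · refine (hv0' ▸ hv0).trans (le_of_eq ?_)
          push_cast
          field_simp
  have hu : √M ≤ (M + val d.w0 ^ 2) / (2 * val d.w0) := by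
    rw [le_div_iff₀ (by linarith [g.w0])]
    nlinarith [Real.sq_sqrt hM0.le, sq_nonneg (√M - val d.w0)]
  suffices -d.roomC M s c t ≤ slow (d.pC M s t) (d.aC M c) (d.qC M s c t) (1 / r) by
    simp only [slow, one_div_one_div, Data.roomC] at this
    rw [one_div, Real.log_inv, ← one_div] at this
    linarith
  have hq : (0 : ℝ) < 1 / r := by positivity
  rcases le_total (1 / r) (val d.v0 ^ 2) with h | h
  · have := hone (√(1 / r)) (Real.sqrt_pos.2 hq) (Real.sqrt_le_iff.2 ⟨hK.2.1.le, h⟩)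
    rwa [Real.sq_sqrt hq.le] at this
  refine slow_ge (x := d.xC M s c t) hPA hA.le hK.1 h ?_ (hone _ hK.2.1 le_rfl) fun hx => ?_
  · have := mul_le_mul_of_nonneg_left
      (show M * s + √M ≤ M * s + (M + val d.w0 ^ 2) / (2 * val d.w0) by linarith)
      (mul_nonneg hr.le (sub_nonneg.2 ht.2.le))
    have hb : val d.v0 ^ 2 * d.xC M s c t =
        (1 - t) * (M * s + (M + val d.w0 ^ 2) / (2 * val d.w0)) / c ^ 2 := by
      have := hK.2.1.ne'
      rw [Data.xC]
      field_simp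
    rw [hb, div_le_div_iff₀ hr (by positivity)]
    linarith
  · obtain ⟨_, h'⟩ := g.room
    have h2 := nonneg_of_certify h' bT
    simp [Data.eEnd, Expr.eval, ev, eC', eN', eH', eval_q] at h2
    have he := eval_x (d := d) (M := M) (t := t) (w := w) 0 hC.ne' g.w0.ne' hK.2.1.ne'
    rw [es, ec] at he
    have hd0 : 0 < d.eXd.eval [0, t, M, w] := by
      have := g.w0
      have := hK.2.1
      simp [Data.eXd, Expr.eval, eval_q, eC']
      positivity
    exact clear_end (t := t) (u := d.eXn.eval [0, t, M, w]) hT hN0 hC hA.le g.lam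
      (by linarith [hK.1]) g.lv hx hd0 (by rw [← he]; field_simp) (by linarith)

end Vale.Agent.P237.Petty.Cor.Few
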