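import Vale.Agent.P100.Bernstein.Cert

/-!
# P237: the polynomials of the slope-free field in the orders below twenty-five

For one range of `M = p + 3` a field is a record of rationals. With `s = 2 w / (1 + w ^ 2)`, `t`
and `v`, the speed being `1 / v ^ 2`, the margins over the loss are polynomials in `(v, t, M, w)`,
linear in the coefficients of the speed, of its reciprocal and of its logarithm.
-/

namespace Vale.Agent.P237.Petty.Cor.Few

open Vale.Agent.P100.Bernstein

/-- A field for one range of orders: numerators and denominators. -/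
structure Data where
  /-- least `M` -/
  lo : ℕ
  /-- greatest `M` -/
  hi : ℕ
  /-- the Fisher weight at `M = 0` -/
  nu0 : ℤ × ℕ
  /-- its slope in `M` -/
  nu1 : ℤ × ℕ
  /-- the quadratic coefficient of the potential at `M = 0` -/
  b0 : ℤ × ℕ
  /-- its slope in `M` -/
  b1 : ℤ × ℕ
  /-- the weight of the shadow beyond twice the Fisher weight -/
  bm : ℤ × ℕ
  /-- the coefficient of the square in the potential at `M = 0` -/
  k0 : ℤ × ℕ
  /-- its slope in `M` -/
  k1 : ℤ × ℕ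
  /-- the test, times `M` -/
  g : ℤ × ℕ
  /-- the offset of the linear coefficient of the potential -/
  d1 : ℤ × ℕ
  /-- the point where the square root of `M` is replaced by its tangent -/
  w0 : ℤ × ℕ
  /-- the root of the largest reciprocal speed treated directly -/
  v0 : ℤ × ℕ
  /-- a lower bound of the logarithm of that speed -/
  lv : ℤ × ℕ
  /-- the multiplier of the room -/
  lam : ℤ × ℕ
  /-- the threshold of the logarithm -/
  ell : ℤ × ℕ
  /-- the scale of the variable of the order in the loss -/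
  zc : ℤ × ℕ
  /-- the loss -/
  a : ℕ → ℤ × ℕ

/-- A rational constant. -/
def q (x : ℤ × ℕ) : Expr := .frac x.1 x.2

/-- The value of a rational constant. -/
noncomputable def val (x : ℤ × ℕ) : ℝ := (x.1 : ℝ) / x.2

/-- The order, as `p + 3`. -/
def eM : Expr := .var 2

/-- The height. -/
def eH : Expr := .var 1

/-- The root of the reciprocal of the speed. -/
def eV : Expr := .var 0

/-- One plus the square of the half angle. -/
def eN : Expr := .add 1 (.pow (.var 3) 2)

/-- One minus the square of the half angle. -/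
def eC : Expr := .sub 1 (.pow (.var 3) 2)

/-- Twice the half angle. -/
def eS : Expr := .mul 2 (.var 3)

/-- The displacement. -/
def eD : Expr := eH * eN - eS

/-- Two halves give the whole. -/
theorem certify_split {S : Bool} {e : Expr} {B : List Iv} {i : ℕ} {l r : Tree}
    (h₁ : certify S e (halves i B).1 l = true) (h₂ : certify S e (halves i B).2 r = true) :
    certify S e B (.split i l r) = true := by
  simp only [certify, checkTree, Bool.and_eq_true, (length_halves i B).1] at h₁ h₂ ⊢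
  exact ⟨h₁.1, h₁.2, h₂.2⟩

namespace Data

variable (d : Data)

/-- The Fisher weight. -/
def eNu : Expr := q d.nu0 + q d.nu1 * eM

/-- The quadratic coefficient of the potential. -/
def eb : Expr := q d.b0 + q d.b1 * eM

/-- The coefficient of the square in the potential. -/
def ek : Expr := q d.k0 + q d.k1 * eM

/-- The coefficient of the speed. -/
def eP : Expr :=
  2 * d.eNu * (eM + q d.g) * (eM * eN - eH * (eM * eS - q d.g * eD)) * eN ^ 3

/-- The coefficient of the reciprocal of the speed. -/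
def eQ : Expr :=
  eM * ((eM + 1 + 2 * d.eNu * (1 - q d.g) + q d.d1) * eN ^ 2 + d.ek * eM * eS ^ 2 +
    2 * d.eb * eM * eD * eN) * eC ^ 2

/-- The coefficient of the logarithm, times the circle. -/
def eA : Expr := (2 * d.eNu + q d.bm) * eM ^ 2 * eN ^ 5

/-- The variable of the order in the loss. -/
def eZ : Expr := q d.zc * eM - 1

/-- The loss, times the fourth power of the circle. -/
def eR : Expr :=
  ((q (d.a 0) + q (d.a 6) * d.eZ) * eN ^ 6 +
    (q (d.a 1) + q (d.a 7) * d.eZ) * eS ^ 2 * eN ^ 4 +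
    (q (d.a 2) + q (d.a 8) * d.eZ) * eS ^ 4 * eN ^ 2 + q (d.a 3) * eS ^ 6) * eC ^ 4 +
    q (d.a 4) * eS ^ 8 * eC ^ 2 + q (d.a 5) * eS ^ 10

/-- The terms in the displacement and the loss. -/
def eW : Expr :=
  (d.eb * eM ^ 3 * eS + d.eNu * (2 * q d.g * eM - (eM - 1) * q d.g ^ 2) * eN) * eD ^ 2 *
      eN ^ 3 * eC ^ 4 +
    eM ^ 2 * (eS * (q d.d1 * eN ^ 2 + (eM + 2) * d.ek * eS ^ 2 - 2 * d.ek * eN ^ 2)) * eD *
      eN ^ 2 * eC ^ 4 +
    eM ^ 2 * d.eR

/-- Reciprocal speeds up to the square of `v0`. -/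
def eOne : Expr :=
  eN ^ 2 * eC ^ 3 * (d.eP * eC * (1 - eV ^ 2) * (4 + 2 * eV) +
      2 * d.eA * eV * (eV - 1) * (1 + 5 * eV) -
      d.eQ * eC * eV ^ 2 * (eV ^ 2 - 1) * (4 + 2 * eV)) +
    d.eW * eV ^ 2 * (4 + 2 * eV)

/-- The numerator of the room over the square of `v0`. -/
def eXn : Expr :=
  (1 - eH) * (2 * q d.w0 * eM * eS + (eM + q d.w0 ^ 2) * eN) * eN

/-- The denominator of the room over the square of `v0`. -/
def eXd : Expr := 2 * q d.w0 * q d.v0 ^ 2 * eC ^ 2

/-- The end of the room, with the multiplier of its being above the square of `v0`. -/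
def eEnd : Expr :=
  (eN ^ 2 * eC ^ 3 * (d.eP * eC * (d.eXd - q d.v0 ^ 2 * d.eXn) * (4 * d.eXd + 2 * d.eXn) * d.eXd +
      q d.v0 ^ 2 * d.eA * (q d.lv * d.eXn * (4 * d.eXd + 2 * d.eXn) +
        (d.eXn - d.eXd) * (d.eXd + 5 * d.eXn)) * d.eXd -
      q d.v0 ^ 2 * d.eQ * eC * (q d.v0 ^ 2 * d.eXn - d.eXd) * d.eXn *
        (4 * d.eXd + 2 * d.eXn)) +
    q d.v0 ^ 2 * d.eW * d.eXn * (4 * d.eXd + 2 * d.eXn) * d.eXd) * (d.eXd + 4 * d.eXn) ^ 2 -
    q d.lam * eH ^ 2 * (eN ^ 2 * eC ^ 3 * d.eA * d.eXd ^ 4 * (d.eXn - d.eXd))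

/-- Speeds above two hundred and fifty-six, near the end of the circle. -/
def eCorner : Expr := 16 * d.eP * d.eW - q (7, 4) * (eN ^ 2 * eC ^ 2 * d.eA ^ 2)

/-- The coefficient of the speed is at most that of the logarithm. -/
def eDom : Expr := d.eA - d.eP * eC

/-- The margin of the mean. -/
def eMean : Expr :=
  q d.ell * ((eM + 1) * (eM + 3) * (eM + 5) * (eM - 2) * (eM - 4)) -
    (eM - 1) * ((q (d.a 0) + q (d.a 6) * d.eZ) *
        ((eM + 1) * (eM + 3) * (eM + 5) * (eM - 2) * (eM - 4)) +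
      (q (d.a 1) + q (d.a 7) * d.eZ) * ((eM + 3) * (eM + 5) * (eM - 2) * (eM - 4)) +
      3 * (q (d.a 2) + q (d.a 8) * d.eZ) * ((eM + 5) * (eM - 2) * (eM - 4)) +
      15 * q (d.a 3) * ((eM - 2) * (eM - 4)) + 105 * q (d.a 4) * (eM - 4) + 945 * q (d.a 5))

/-- The range of `(t, M, w)`. -/
def box : List Iv := [⟨0, 0, 1⟩, ⟨0, 1, 1⟩, ⟨d.lo, d.hi, 1⟩, ⟨0, 1, 1⟩]

/-- The range of `(v, t, M, w)` of the speeds above one. -/
def boxFast : List Iv := [⟨0, 1, 1⟩, ⟨0, 1, 1⟩, ⟨d.lo, d.hi, 1⟩, ⟨0, 7, 8⟩]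

/-- The range of `(v, t, M, w)` of the speeds below one. -/
def boxSlow : List Iv := [⟨d.v0.2, d.v0.1, d.v0.2⟩, ⟨0, 1, 1⟩, ⟨d.lo, d.hi, 1⟩, ⟨0, 7, 8⟩]

/-- The range of `(v, t, M, w)` near the end of the circle. -/
def boxFar : List Iv :=
  [⟨d.v0.2, 16 * d.v0.1, 16 * d.v0.2⟩, ⟨0, 1, 1⟩, ⟨d.lo, d.hi, 1⟩, ⟨7, 8, 8⟩]

/-- The range of `(t, M, w)` near the end of the circle. -/
def boxCorner : List Iv := [⟨0, 0, 1⟩, ⟨0, 1, 1⟩, ⟨d.lo, d.hi, 1⟩, ⟨7, 8, 8⟩]

/-- The range of `M`. -/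
def boxM : List Iv := [⟨0, 0, 1⟩, ⟨0, 0, 1⟩, ⟨d.lo, d.hi, 1⟩]

end Data

end Vale.Agent.P237.Petty.Cor.Few
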