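import Vale.Agent.P237.Petty.Cor.Few.Data
import Vale.Agent.P237.Petty.Cor.Huge.Moments

/-!
# P237: the slope-free field of a record, and the values of the cleared polynomials
-/

namespace Vale.Agent.P237.Petty.Cor.Few

open Vale.Agent.P100.Bernstein

namespace Data

variable (d : Data) (M s c t : ℝ)

/-- The weight of the Fisher excess. -/
noncomputable def nuC : ℝ := val d.nu0 + val d.nu1 * M

/-- The quadratic coefficient of the potential. -/
noncomputable def bC : ℝ := val d.b0 + val d.b1 * M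

/-- The coefficient of the square in the potential. -/
noncomputable def kC : ℝ := val d.k0 + val d.k1 * M

/-- The weight of the shadow. -/
noncomputable def shadowC : ℝ := 2 * d.nuC M + val d.bm

/-- The parameter of the test. -/
noncomputable def gC : ℝ := val d.g / M

/-- The linear coefficient of the potential at the centre. -/
noncomputable def cK : ℝ := 1 + (1 + 2 * d.nuC M * (1 - val d.g) + val d.d1) / M

/-- The linear coefficient of the potential. -/
noncomputable def kPot : ℝ := d.cK M + d.kC M * s ^ 2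

/-- The coefficient of the speed. -/
noncomputable def pC : ℝ :=
  2 * d.nuC M * (1 + d.gC M) * (1 - t * (s - d.gC M * (t - s)))

/-- The coefficient of the reciprocal of the speed. -/
noncomputable def qC : ℝ := (d.kPot M s + 2 * d.bC M * (t - s)) * c ^ 2

/-- The coefficient of the logarithm of the speed. -/
noncomputable def aC : ℝ := d.shadowC M / c

/-- The terms in the displacement. -/
noncomputable def baseC : ℝ :=
  (d.bC M * M * s + d.nuC M * (2 * d.gC M - (M - 1) * d.gC M ^ 2)) * (t - s) ^ 2 +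
    s * (val d.d1 + (M + 2) * d.kC M * s ^ 2 - 2 * d.kC M) * (t - s)

/-- An affine coefficient of the loss. -/
noncomputable def coef (i j : ℕ) : ℝ := val (d.a i) + val (d.a j) * (val d.zc * M - 1)

/-- The bound of the loss. -/
noncomputable def lossR : ℝ :=
  d.coef M 0 6 + d.coef M 1 7 * s ^ 2 + d.coef M 2 8 * s ^ 4 + val (d.a 3) * s ^ 6 +
    val (d.a 4) * (s ^ 8 / c ^ 2) + val (d.a 5) * (s ^ 10 / c ^ 4)

/-- What the gauge may lose. -/
noncomputable def roomC : ℝ := d.baseC M s t + d.lossR M s c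

/-- The upper bound of the room over the square of `v0`. -/
noncomputable def xC : ℝ :=
  (1 - t) * (M * s + (M + val d.w0 ^ 2) / (2 * val d.w0)) / (val d.v0 ^ 2 * c ^ 2)

end Data

variable {d : Data} {M w t : ℝ}

theorem eval_q (x : ℤ × ℕ) (l : List ℝ) : (q x).eval l = val x := by simp [q, val]

theorem eval_terms (v : ℝ) (hM : M ≠ 0) (hC : 1 - w ^ 2 ≠ 0) :
    d.eP.eval [v, t, M, w] = M ^ 2 * (1 + w ^ 2) ^ 4 * d.pC M (2 * w / (1 + w ^ 2)) t ∧
    d.eQ.eval [v, t, M, w] = M ^ 2 * (1 + w ^ 2) ^ 4 *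
      d.qC M (2 * w / (1 + w ^ 2)) ((1 - w ^ 2) / (1 + w ^ 2)) t ∧
    d.eA.eval [v, t, M, w] = M ^ 2 * (1 + w ^ 2) ^ 4 * (1 - w ^ 2) *
      d.aC M ((1 - w ^ 2) / (1 + w ^ 2)) := by
  have hN : (1 : ℝ) + w ^ 2 ≠ 0 := by positivity
  refine ⟨?_, ?_, ?_⟩
  · simp [Data.eP, Data.eNu, eD, eM, eH, eN, eS, Expr.eval, eval_q, Data.pC, Data.gC, Data.nuC]
    field_simp
  · simp [Data.eQ, Data.eNu, Data.eb, Data.ek, eD, eM, eH, eN, eC, eS, Expr.eval, eval_q, Data.qC,
      Data.kPot, Data.cK, Data.bC, Data.nuC, Data.kC]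
    field_simp
    ring
  · simp [Data.eA, Data.eNu, eM, eN, Expr.eval, eval_q, Data.aC, Data.shadowC, Data.nuC]
    field_simp

theorem eval_W (v : ℝ) (hM : M ≠ 0) (hC : 1 - w ^ 2 ≠ 0) :
    d.eW.eval [v, t, M, w] = M ^ 2 * (1 + w ^ 2) ^ 4 * (1 + w ^ 2) ^ 2 * (1 - w ^ 2) ^ 4 *
      d.roomC M (2 * w / (1 + w ^ 2)) ((1 - w ^ 2) / (1 + w ^ 2)) t := by
  have hN : (1 : ℝ) + w ^ 2 ≠ 0 := by positivity
  simp [Data.eW, Data.eR, Data.eZ, Data.eNu, Data.eb, Data.ek, eD, eM, eH, eN, eC, eS, Expr.eval,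
    eval_q, Data.roomC, Data.baseC, Data.lossR, Data.coef, Data.bC, Data.nuC, Data.kC, Data.gC]
  field_simp

theorem eval_x (v : ℝ) (hC : 1 - w ^ 2 ≠ 0) (hw : val d.w0 ≠ 0) (hv : val d.v0 ≠ 0) :
    d.eXn.eval [v, t, M, w] / d.eXd.eval [v, t, M, w] =
      d.xC M (2 * w / (1 + w ^ 2)) ((1 - w ^ 2) / (1 + w ^ 2)) t := by
  have hN : (1 : ℝ) + w ^ 2 ≠ 0 := by positivity
  simp [Data.eXn, Data.eXd, eM, eH, eN, eC, eS, Expr.eval, eval_q, Data.xC]
  field_simp

end Vale.Agent.P237.Petty.Cor.Few
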