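import Vale.Agent.P237.Petty.Cor.Few.Mean
import Vale.Agent.P237.Petty.Cor.Mean

/-!
# P237: a record gives the large regime above its threshold

The test `s - g (t - s)`, the weight one and the potential `-(1 - s ^ 2) (K (s) d + b d ^ 2)`: the
integrand per unit of mass is above the common part minus the loss, a function of `s` of
nonnegative mean once `ell` is at least the threshold.
-/

namespace Vale.Agent.P237.Petty.Cor.Few

open MeasureTheory Set intervalIntegral
open Ident (half)

variable {p : ℕ} {d : Data}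

/-- The lower bound in the abscissa of the circle. -/
noncomputable def psi (p : ℕ) (d : Data) (M ell s : ℝ) : ℝ :=
  (d.nuC M + 1) * (1 - ((p : ℝ) + 4) * s ^ 2) + ell / ((p : ℝ) + 2) - d.lossR M s (arc s)

/-- The potential. -/
theorem pot_few (d : Data) (M : ℝ) :
    Pot (fun s t => (1 - s ^ 2) *
        -((d.cK M + d.kC M * s ^ 2) * (t - s) + d.bC M * (t - s) ^ 2))
      (fun s t => -2 * s * -((d.cK M + d.kC M * s ^ 2) * (t - s) + d.bC M * (t - s) ^ 2) +
        (1 - s ^ 2) * (-(2 * d.kC M * s * (t - s)) + (d.kPot M s + 2 * d.bC M * (t - s))))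
      fun s t => (1 - s ^ 2) * -(d.kPot M s + 2 * d.bC M * (t - s)) :=
  Pot.arcSq (((((Pot.const (d.cK M)).add ((Pot.abscissa.pow 2).smul (d.kC M))).mul
      (Pot.height.sub Pot.abscissa)).add (((Pot.height.sub Pot.abscissa).pow 2).smul (d.bC M))).smul
      (-1) |>.congr (fun s t => by ring)
      (fun s _ t _ => by simp only [Data.kPot]; push_cast; ring)
      fun s _ t _ => by simp only [Data.kPot]; push_cast; ring)

/-- The integrand per unit of mass is above `psi`. -/
theorem psi_le_perMass (g : Good d) {M : ℝ} (hM : M = (p : ℝ) + 3)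
    (h28 : M ∈ Icc (d.lo : ℝ) d.hi) {ell top : ℝ}
    {s t a r q : ℝ} (h : FlatState p top s t a r q) :
    psi p d M ell s ≤ perMass p (d.shadowC M * ((p : ℝ) + 1) / Ident.b0 p) (d.nuC M) 1 ell
      (fun s t => s + d.gC M * (s - t)) (fun _ _ => 1 + d.gC M) (fun _ _ => -d.gC M) (fun _ => 1)
      (fun s t => (1 - s ^ 2) * -((d.cK M + d.kC M * s ^ 2) * (t - s) + d.bC M * (t - s) ^ 2))
      (fun s t => -2 * s * -((d.cK M + d.kC M * s ^ 2) * (t - s) + d.bC M * (t - s) ^ 2) +
        (1 - s ^ 2) * (-(2 * d.kC M * s * (t - s)) + (d.kPot M s + 2 * d.bC M * (t - s))))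
      (fun s t => (1 - s ^ 2) * -(d.kPot M s + 2 * d.bC M * (t - s))) s t a r := by
  have hM0 : 0 < M := by rw [hM]; positivity
  have hs := h.state.s_mem
  have ht := h.state.t_mem
  have hr := h.state.rate_pos
  have hc := h.state.arc_pos'
  have hb := Ident.b0_pos p
  have hc2 : arc s ^ 2 = 1 - s ^ 2 := Real.sq_sqrt (by nlinarith [hs.1, hs.2])
  have hB : 0 ≤ d.shadowC M := (g.shadow M h28).le
  have hA : d.aC M (arc s) * -Real.log r ≤
      d.shadowC M * ((p : ℝ) + 1) / Ident.b0 p * Ident.b0 p * (1 / a - 1 / arc s) := by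
    refine le_trans (le_of_eq ?_) (h.shadow_ge (div_nonneg (mul_nonneg hB (by positivity)) hb.le))
    rw [Data.aC]
    field_simp
  have hp : (p : ℝ) = M - 3 := by linarith
  have hg : d.gC M * M = val d.g := div_mul_cancel₀ _ hM0.ne'
  have hK : M * d.cK M = M + 1 + 2 * d.nuC M * (1 - val d.g) + val d.d1 := by
    rw [Data.cK]
    field_simp
    ring
  have e : d.nuC M * fisherTest p (fun s t => s + d.gC M * (s - t)) (fun _ _ => 1 + d.gC M)
        (fun _ _ => -d.gC M) s t r - 1 * (((p : ℝ) + 4) * (s * t) - 1) +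
      nullPart p (fun s t => (1 - s ^ 2) *
          -((d.cK M + d.kC M * s ^ 2) * (t - s) + d.bC M * (t - s) ^ 2))
        (fun s t => -2 * s * -((d.cK M + d.kC M * s ^ 2) * (t - s) + d.bC M * (t - s) ^ 2) +
          (1 - s ^ 2) * (-(2 * d.kC M * s * (t - s)) + (d.kPot M s + 2 * d.bC M * (t - s))))
        (fun s t => (1 - s ^ 2) * -(d.kPot M s + 2 * d.bC M * (t - s))) s t r =
      d.pC M s t * (r - 1) - d.qC M s (arc s) t * (1 / r - 1) + d.baseC M s t +
        (d.nuC M + 1) * (1 - ((p : ℝ) + 4) * s ^ 2) := by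
    rw [nullPart_arcSq (Qs := fun s t => -(2 * d.kC M * s * (t - s)) + (d.kPot M s + 2 * d.bC M * (t - s)))
      (Qt := fun s t => -(d.kPot M s + 2 * d.bC M * (t - s))) hs, fisherTest, hp]
    simp only [Data.qC, Data.pC, Data.baseC, Data.kPot, hc2]
    linear_combination (s * (t - s)) * hK + (2 * d.nuC M * (s * (t - s))) * hg
  have hroom := h.room
  rw [← hc2, millsDen, ← hM] at hroom
  have := core_ge g h28 hs ht hc hc2 hr hroom
  rw [perMass_eq, psi]
  linarith

/-- A record gives the large regime above its threshold in its orders. -/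
theorem pointwiseR_of_good (g : Good d) (hp : d.lo ≤ p + 3) (hp' : p + 3 ≤ d.hi) :
    PointwiseR p (val d.ell) := fun ell hl => by
  have hp4 : 4 ≤ p := by linarith [g.lo7]
  obtain ⟨k, rfl⟩ : ∃ k, p = k + 3 := ⟨p - 3, by omega⟩
  obtain ⟨M, hM⟩ : ∃ M : ℝ, M = ((k + 3 : ℕ) : ℝ) + 3 := ⟨_, rfl⟩
  have hMk : M = (k : ℝ) + 6 := by rw [hM]; push_cast; ring
  have h28 : M ∈ Icc (d.lo : ℝ) d.hi := by
    rw [hM]
    exact ⟨by exact_mod_cast hp, by exact_mod_cast hp'⟩
  have hk : (1 : ℝ) ≤ k := by exact_mod_cast (show 1 ≤ k by omega)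
  have hgam : 0 < d.shadowC M * (((k + 3 : ℕ) : ℝ) + 1) / Ident.b0 (k + 3) :=
    div_pos (mul_pos (g.shadow M h28) (by positivity)) (Ident.b0_pos _)
  refine ⟨_, d.nuC M, 1, ell, ell, hgam, (g.nu M h28).le, one_pos, le_rfl, le_rfl,
    flatField_of_point_mean (ω := fun _ => 1) (ψ := psi (k + 3) d M ell) (axTest_affine _)
      continuous_const (by simp only [mul_one]; rfl) (pot_few d M) (by simp) ?_ ?_
      fun s t a r q h => psi_le_perMass g hM h28 h⟩
  all_goals have hc := continuous_loss d M (show k ≠ 0 by omega)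
  · refine Continuous.continuousOn ?_
    simp only [psi, mul_sub]
    exact ((continuous_arc.pow _).mul (by fun_prop)).sub hc
  · have e : ∀ s : ℝ, arc s ^ (k + 3 + 1) * psi (k + 3) d M ell s =
        ((d.nuC M + 1 + ell / (((k + 3 : ℕ) : ℝ) + 2)) * arc s ^ (k + 4) -
          (d.nuC M + 1) * (((k + 3 : ℕ) : ℝ) + 4) * (arc s ^ (k + 4) * s ^ 2)) -
        arc s ^ (k + 4) * d.lossR M s (arc s) := fun s => by
      simp only [psi]
      ring
    have i1 : IntervalIntegrable (fun s => arc s ^ (k + 4)) volume 0 1 :=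
      (continuous_arc.pow _).intervalIntegrable _ _
    have i2 : IntervalIntegrable (fun s => arc s ^ (k + 4) * s ^ 2) volume 0 1 :=
      ((continuous_arc.pow _).mul (continuous_pow 2)).intervalIntegrable _ _
    have em := integral_arc_pow_mul_sq (k + 3)
    have eh : ∫ s in (0 : ℝ)..1, arc s ^ (k + 4) = half (k + 4) := rfl
    rw [intervalIntegral.integral_congr fun s _ => e s,
      intervalIntegral.integral_sub ((i1.const_mul _).sub (i2.const_mul _))
        (hc.intervalIntegrable _ _),
      intervalIntegral.integral_sub (i1.const_mul _) (i2.const_mul _),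
      intervalIntegral.integral_const_mul, intervalIntegral.integral_const_mul,
      mul_assoc (d.nuC M + 1), em, eh]
    have hI := loss_le d g hMk (by omega) h28
    push_cast
    rw [show (k : ℝ) + 3 + 2 = M - 1 by linarith]
    have h1 := mul_le_mul_of_nonneg_right hl (Ident.half_pos (k + 4)).le
    have h2 : (∫ s in (0 : ℝ)..1, arc s ^ (k + 4) * d.lossR M s (arc s)) ≤
        ell / (M - 1) * half (k + 4) := by
      rw [div_mul_eq_mul_div, le_div_iff₀ (by linarith)]
      linarith
    linarith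

end Vale.Agent.P237.Petty.Cor.Few
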