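import Vale.Agent.P237.Petty.Cor.Few.Core

/-!
# P237: the mean of the loss of a record

Against the circle of order `k + 4` the loss is at most `ell` times its mass over `k + 5`.
-/

namespace Vale.Agent.P237.Petty.Cor.Few

open MeasureTheory Set intervalIntegral Vale.Agent.P100.Bernstein
open Ident (half)
open Huge (moment moment_step moment_zero integrable_moment)

variable (d : Data)

/-- The loss against the circle, with nonnegative powers. -/
theorem lossR_mul (M : ℝ) (k : ℕ) {s : ℝ} (hk : k ≠ 0) :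
    arc s ^ (k + 4) * d.lossR M s (arc s) =
      d.coef M 0 6 * (arc s ^ (k + 4) * s ^ (2 * 0)) +
      d.coef M 1 7 * (arc s ^ (k + 4) * s ^ (2 * 1)) +
      d.coef M 2 8 * (arc s ^ (k + 4) * s ^ (2 * 2)) +
      val (d.a 3) * (arc s ^ (k + 4) * s ^ (2 * 3)) +
      val (d.a 4) * (arc s ^ (k + 2) * s ^ (2 * 4)) + val (d.a 5) * (arc s ^ k * s ^ (2 * 5)) := by
  rcases eq_or_ne (arc s) 0 with h | h
  · simp [h, zero_pow hk, zero_pow (show k + 4 ≠ 0 by omega), zero_pow (show k + 2 ≠ 0 by omega)]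
  · simp only [Data.lossR, pow_add]
    field_simp
    ring

theorem continuous_loss (M : ℝ) {k : ℕ} (hk : k ≠ 0) :
    Continuous fun s => arc s ^ (k + 4) * d.lossR M s (arc s) := by
  rw [funext fun s => lossR_mul d M k (s := s) hk]
  have := continuous_arc
  fun_prop

/-- The mean of the loss. -/
theorem loss_le (g : Good d) {k : ℕ} {M : ℝ} (hM : M = (k : ℝ) + 6) (hk : 1 ≤ k)
    (hM' : M ∈ Icc (d.lo : ℝ) d.hi) :
    (M - 1) * (∫ s in (0 : ℝ)..1, arc s ^ (k + 4) * d.lossR M s (arc s)) ≤
      val d.ell * half (k + 4) := by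
  have hk0 : k ≠ 0 := by omega
  have a1k : (1 : ℝ) ≤ k := by exact_mod_cast hk
  have hI : (∫ s in (0 : ℝ)..1, arc s ^ (k + 4) * d.lossR M s (arc s)) =
      d.coef M 0 6 * moment (k + 4) 0 +
      d.coef M 1 7 * moment (k + 4) 1 +
      d.coef M 2 8 * moment (k + 4) 2 +
      val (d.a 3) * moment (k + 4) 3 + val (d.a 4) * moment (k + 2) 4 + val (d.a 5) * moment k 5 := by
    rw [intervalIntegral.integral_congr fun s _ => lossR_mul d M k (s := s) hk0]
    have hi := fun (a : ℝ) (j i : ℕ) => (integrable_moment j i 0 1).const_mul a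
    rw [intervalIntegral.integral_add ((((hi _ _ _).add (hi _ _ _)).add (hi _ _ _)).add
        (hi _ _ _) |>.add (hi _ _ _)) (hi _ _ _),
      intervalIntegral.integral_add ((((hi _ _ _).add (hi _ _ _)).add (hi _ _ _)).add (hi _ _ _))
        (hi _ _ _),
      intervalIntegral.integral_add (((hi _ _ _).add (hi _ _ _)).add (hi _ _ _)) (hi _ _ _),
      intervalIntegral.integral_add ((hi _ _ _).add (hi _ _ _)) (hi _ _ _),
      intervalIntegral.integral_add (hi _ _ _) (hi _ _ _)]
    simp only [intervalIntegral.integral_const_mul, moment]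
  have a1 := moment_step (k + 4) 0
  have a2 := moment_step (k + 4) 1
  have a3 := moment_step (k + 4) 2
  have b1 := moment_step (k + 2) 0
  have b2 := moment_step (k + 2) 1
  have b3 := moment_step (k + 2) 2
  have b4 := moment_step (k + 2) 3
  have c1 := moment_step k 0
  have c2 := moment_step k 1
  have c3 := moment_step k 2
  have c4 := moment_step k 3
  have c5 := moment_step k 4
  have s1 := Ident.half_step (k + 2)
  have s2 := Ident.half_step k
  rw [hI]
  simp only [moment_zero, show k + 2 + 2 = k + 4 from rfl, show 0 + 1 = 1 from rfl,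
    show 1 + 1 = 2 from rfl, show 2 + 1 = 3 from rfl, show 3 + 1 = 4 from rfl,
    show 4 + 1 = 5 from rfl] at a1 a2 a3 b1 b2 b3 b4 c1 c2 c3 c4 c5 s1 s2 ⊢
  push_cast at a1 a2 a3 b1 b2 b3 b4 c1 c2 c3 c4 c5 s1 s2
  rw [show (k : ℝ) = M - 6 by linarith] at a1 a2 a3 b1 b2 b3 b4 c1 c2 c3 c4 c5 s1 s2
  set h := half (k + 4)
  have e1 : (M + 1) * moment (k + 4) 1 = h := by linear_combination a1
  have e2 : (M + 1) * (M + 3) * moment (k + 4) 2 = 3 * h := by
    linear_combination (M + 1) * a2 + 3 * e1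
  have e3 : (M + 1) * (M + 3) * (M + 5) * moment (k + 4) 3 = 15 * h := by
    linear_combination (M + 1) * (M + 3) * a3 + 5 * e2
  have g1 : (M - 2) * half (k + 2) = (M - 1) * h := by linear_combination -s1
  have g0 : (M - 2) * (M - 4) * half k = (M - 1) * (M - 3) * h := by
    linear_combination -(M - 2) * s2 + (M - 3) * g1
  have n1 : (M - 2) * moment (k + 2) 1 = h := by
    refine mul_left_cancel₀ (show M - 1 ≠ 0 by linarith) ?_
    linear_combination (M - 2) * b1 + g1
  have n2 : (M - 2) * (M + 1) * moment (k + 2) 2 = 3 * h := by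
    linear_combination (M - 2) * b2 + 3 * n1
  have n3 : (M - 2) * (M + 1) * (M + 3) * moment (k + 2) 3 = 15 * h := by
    linear_combination (M - 2) * (M + 1) * b3 + 5 * n2
  have n4 : (M + 1) * (M + 3) * (M + 5) * (M - 2) * moment (k + 2) 4 = 105 * h := by
    linear_combination (M - 2) * (M + 1) * (M + 3) * b4 + 7 * n3
  have m1 : (M - 2) * (M - 4) * moment k 1 = (M - 1) * h := by
    refine mul_left_cancel₀ (show M - 3 ≠ 0 by linarith) ?_
    linear_combination (M - 2) * (M - 4) * c1 + g0
  have m2 : (M - 2) * (M - 4) * moment k 2 = 3 * h := by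
    refine mul_left_cancel₀ (show M - 1 ≠ 0 by linarith) ?_
    linear_combination (M - 2) * (M - 4) * c2 + 3 * m1
  have m3 : (M - 2) * (M - 4) * (M + 1) * moment k 3 = 15 * h := by
    linear_combination (M - 2) * (M - 4) * c3 + 5 * m2
  have m4 : (M - 2) * (M - 4) * (M + 1) * (M + 3) * moment k 4 = 105 * h := by
    linear_combination (M - 2) * (M - 4) * (M + 1) * c4 + 7 * m3
  have m5 : (M + 1) * (M + 3) * (M + 5) * (M - 2) * (M - 4) * moment k 5 = 945 * h := by
    linear_combination (M - 2) * (M - 4) * (M + 1) * (M + 3) * c5 + 9 * m4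
  have hh : 0 < h := Ident.half_pos _
  obtain ⟨_, hT⟩ := g.mean
  have hc := nonneg_of_certify hT (x := [0, 0, M]) (by simp [InBox, Data.boxM, hM'.1, hM'.2])
  simp [Data.eMean, Data.eZ, eM, Expr.eval, eval_q] at hc
  have hden : 0 < (M + 1) * (M + 3) * (M + 5) * (M - 2) * (M - 4) :=
    mul_pos (mul_pos (mul_pos (mul_pos (by linarith) (by linarith)) (by linarith)) (by linarith))
      (by linarith)
  refine sub_nonneg.1 (nonneg_of_mul_nonneg_right (le_trans (mul_nonneg hh.le (sub_nonneg.2 hc))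
    (le_of_eq ?_)) hden)
  simp only [Data.coef]
  linear_combination (M - 1) *
    ((val (d.a 1) + val (d.a 7) * (val d.zc * M - 1)) * ((M + 3) * (M + 5) * (M - 2) * (M - 4)) * e1 +
      (val (d.a 2) + val (d.a 8) * (val d.zc * M - 1)) * ((M + 5) * (M - 2) * (M - 4)) * e2 +
      val (d.a 3) * ((M - 2) * (M - 4)) * e3 + val (d.a 4) * (M - 4) * n4 + val (d.a 5) * m5)

end Vale.Agent.P237.Petty.Cor.Few
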